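import Vale.Agent.Helper26.KTVG.PairJohnson
import Vale.Agent.Helper12.KTVJ.Final

/-!
Module M7 of the switch-chain project for simple graphs (problem P335), final form:
the Johnson statement of the plan, with no hypothesis left.  It combines the transfer to
the pair fibres (`johnsonStmt`) with the Johnson pair inequality of module M4
(`KTV.JP.johnson_pair`).
-/

namespace KTV

namespace G26

open Finset

/-- The sharp Johnson pair inequality, in the form used by the transfer. -/
theorem johnsonPairC_two (V : Type*) [DecidableEq V] : JohnsonPairC V 2 := by
  intro J k g
  exact KTV.JP.johnson_pair J k g

/-- The Johnson statement of the plan for the graphs with degree sequence `d`. -/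
theorem johnsonStmt_final {n : ℕ} (d : Fin n → ℕ) : KTVG.JohnsonStmt n d :=
  johnsonStmt d (johnsonPairC_two (Fin n))

end G26

end KTV
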